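import Vale.Agent.P182.H291.CenR
import Vale.Agent.P182.H533.Form

/-!
# The centre of a null triple
-/

namespace Vale.Agent.P182.H291

open Module Vale.Agent.P182.H533

/-- the ten null types, with the exponent `N` -/
def NullTy (p : Fin 3 → ℕ) (N : ℕ) : Prop :=
  (p 0 = 3 ∧ p 1 = 3 ∧ p 2 = 3 ∧ N = 3) ∨
  (p 0 = 2 ∧ p 1 = 4 ∧ p 2 = 4 ∧ N = 4) ∨ (p 0 = 4 ∧ p 1 = 2 ∧ p 2 = 4 ∧ N = 4) ∨
  (p 0 = 4 ∧ p 1 = 4 ∧ p 2 = 2 ∧ N = 4) ∨
  (p 0 = 2 ∧ p 1 = 3 ∧ p 2 = 6 ∧ N = 6) ∨ (p 0 = 2 ∧ p 1 = 6 ∧ p 2 = 3 ∧ N = 6) ∨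
  (p 0 = 3 ∧ p 1 = 2 ∧ p 2 = 6 ∧ N = 6) ∨ (p 0 = 3 ∧ p 1 = 6 ∧ p 2 = 2 ∧ N = 6) ∨
  (p 0 = 6 ∧ p 1 = 2 ∧ p 2 = 3 ∧ N = 6) ∨ (p 0 = 6 ∧ p 1 = 3 ∧ p 2 = 2 ∧ N = 6)

theorem le_six {p k : Fin 3 → ℕ} {n : ℕ} (hn : 0 < n) {i j l : Fin 3}
    (hi : n = p i * k i) (hj : n = p j * k j) (hl : n = p l * k l)
    (hs : k i + k j + k l = n) : 2 ≤ p i ∧ p i ≤ 6 := by
  have pos : ∀ s, n = p s * k s → 0 < p s ∧ 0 < k s := by
    intro s h
    constructor
    · rcases Nat.eq_zero_or_pos (p s) with h0 | h0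
      · rw [h0, zero_mul] at h; omega
      · exact h0
    · rcases Nat.eq_zero_or_pos (k s) with h0 | h0
      · rw [h0, mul_zero] at h; omega
      · exact h0
  obtain ⟨pi, ki⟩ := pos i hi
  obtain ⟨pj, kj⟩ := pos j hj
  obtain ⟨pl, kl⟩ := pos l hl
  have two : ∀ s, n = p s * k s → k s < n → 2 ≤ p s := by
    intro s h hlt
    by_contra hc
    have h1 : p s ≤ 1 := by omega
    have : n ≤ 1 * k s := by rw [h]; exact Nat.mul_le_mul_right _ h1
    omega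
  have hi2 := two i hi (by omega)
  have hj2 := two j hj (by omega)
  have hl2 := two l hl (by omega)
  refine ⟨hi2, ?_⟩
  by_contra hc
  have h7 : 7 ≤ p i := by omega
  have e7 : 7 * k i ≤ n := by rw [hi]; exact Nat.mul_le_mul_right _ h7
  rcases Nat.lt_or_ge (p j) 3 with h | h
  · have hj' : p j = 2 := by omega
    rw [hj'] at hj
    rcases Nat.lt_or_ge (p l) 3 with h' | h'
    · have hl' : p l = 2 := by omega
      rw [hl'] at hl
      omega
    · have e3 : 3 * k l ≤ n := by rw [hl]; exact Nat.mul_le_mul_right _ h'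
      omega
  · have e3 : 3 * k j ≤ n := by rw [hj]; exact Nat.mul_le_mul_right _ h
    rcases Nat.lt_or_ge (p l) 3 with h' | h'
    · have hl' : p l = 2 := by omega
      rw [hl'] at hl
      omega
    · have e3' : 3 * k l ≤ n := by rw [hl]; exact Nat.mul_le_mul_right _ h'
      omega

theorem list_types {a b c : ℕ} (ha : a ≤ 6) (hb : b ≤ 6) (hc : c ≤ 6) (ha2 : 2 ≤ a)
    (hb2 : 2 ≤ b) (hc2 : 2 ≤ c) (h : b * c + a * c + a * b = a * b * c) :
    (a = 3 ∧ b = 3 ∧ c = 3) ∨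
    (a = 2 ∧ b = 4 ∧ c = 4) ∨ (a = 4 ∧ b = 2 ∧ c = 4) ∨ (a = 4 ∧ b = 4 ∧ c = 2) ∨
    (a = 2 ∧ b = 3 ∧ c = 6) ∨ (a = 2 ∧ b = 6 ∧ c = 3) ∨ (a = 3 ∧ b = 2 ∧ c = 6) ∨
    (a = 3 ∧ b = 6 ∧ c = 2) ∨ (a = 6 ∧ b = 2 ∧ c = 3) ∨ (a = 6 ∧ b = 3 ∧ c = 2) := by
  interval_cases a <;> interval_cases b <;> interval_cases c <;> omega

/-- `1/p₀ + 1/p₁ + 1/p₂ = 1` -/
theorem exists_nullTy {p k : Fin 3 → ℕ} {n : ℕ} (hn : 0 < n) (h : ∀ s, n = p s * k s)
    (hs : ∑ s, k s = n) : ∃ N, NullTy p N := by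
  rw [Fin.sum_univ_three] at hs
  have h0 := le_six hn (h 0) (h 1) (h 2) hs
  have h1 := le_six hn (h 1) (h 0) (h 2) (by omega)
  have h2 := le_six hn (h 2) (h 0) (h 1) (by omega)
  have e0 := h 0
  have e1 := h 1
  have e2 := h 2
  have key : p 1 * p 2 + p 0 * p 2 + p 0 * p 1 = p 0 * p 1 * p 2 := by
    have : n * (p 1 * p 2 + p 0 * p 2 + p 0 * p 1) = n * (p 0 * p 1 * p 2) := by
      calc n * (p 1 * p 2 + p 0 * p 2 + p 0 * p 1)
          = (p 1 * p 2) * n + (p 0 * p 2) * n + (p 0 * p 1) * n := by ring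
        _ = (p 1 * p 2) * (p 0 * k 0) + (p 0 * p 2) * (p 1 * k 1) + (p 0 * p 1) * (p 2 * k 2) := by
            rw [← e0, ← e1, ← e2]
        _ = (p 0 * p 1 * p 2) * (k 0 + k 1 + k 2) := by ring
        _ = n * (p 0 * p 1 * p 2) := by rw [hs]; ring
    exact Nat.eq_of_mul_eq_mul_left hn this
  unfold NullTy
  rcases list_types h0.2 h1.2 h2.2 h0.1 h1.1 h2.1 key with
    ⟨q0, q1, q2⟩ | ⟨q0, q1, q2⟩ | ⟨q0, q1, q2⟩ | ⟨q0, q1, q2⟩ | ⟨q0, q1, q2⟩ | ⟨q0, q1, q2⟩ |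
    ⟨q0, q1, q2⟩ | ⟨q0, q1, q2⟩ | ⟨q0, q1, q2⟩ | ⟨q0, q1, q2⟩
  · exact ⟨3, Or.inl ⟨q0, q1, q2, rfl⟩⟩
  · exact ⟨4, by simp only [q0, q1, q2]; decide⟩
  · exact ⟨4, by simp only [q0, q1, q2]; decide⟩
  · exact ⟨4, by simp only [q0, q1, q2]; decide⟩
  · exact ⟨6, by simp only [q0, q1, q2]; decide⟩
  · exact ⟨6, by simp only [q0, q1, q2]; decide⟩
  · exact ⟨6, by simp only [q0, q1, q2]; decide⟩
  · exact ⟨6, by simp only [q0, q1, q2]; decide⟩
  · exact ⟨6, by simp only [q0, q1, q2]; decide⟩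
  · exact ⟨6, by simp only [q0, q1, q2]; decide⟩

variable {L V : Type*} [Field L] [AddCommGroup V] [Module L V]

/-- the universal coefficient -/
def PP (p : Fin 3 → ℕ) (N : ℕ) (a : Fin 3 → L) : L :=
  (a 1 - a 2) ^ (N / p 0) * (a 2 - a 0) ^ (N / p 1) * (a 0 - a 1) ^ (N / p 2)

theorem PP_ne {p : Fin 3 → ℕ} {N : ℕ} {a : Fin 3 → L} (ha : Function.Injective a) :
    PP p N a ≠ 0 := by
  have h : ∀ i j : Fin 3, i ≠ j → a i - a j ≠ 0 := fun i j hij h0 =>
    hij (ha (sub_eq_zero.mp h0))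
  exact mul_ne_zero (mul_ne_zero (pow_ne_zero _ (h 1 2 (by decide)))
    (pow_ne_zero _ (h 2 0 (by decide)))) (pow_ne_zero _ (h 0 1 (by decide)))

/-- the combination -/
def TT (S : Fin 3 → End L V) (a : Fin 3 → L) : End L V := ∑ s, a s • S s

theorem TT_eq {S : Fin 3 → End L V} (h0 : ∑ s, S s = 0) (a : Fin 3 → L) {i j k : Fin 3}
    (hijk : (Finset.univ : Finset (Fin 3)) = {i, j, k}) (hij : i ≠ j) (hik : i ≠ k) (hjk : j ≠ k) :
    TT S a = (a i - a k) • S i + (a j - a k) • S j ∧ S k = - (S i + S j) := by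
  have e : ∀ f : Fin 3 → End L V, ∑ s, f s = f i + f j + f k := by
    intro f
    rw [hijk, Finset.sum_insert (by simp [hij, hik]), Finset.sum_insert (by simp [hjk]),
      Finset.sum_singleton, add_assoc]
  have h1 : S k = - (S i + S j) := by
    rw [e] at h0
    rw [eq_neg_iff_add_eq_zero, add_comm]; exact h0
  refine ⟨?_, h1⟩
  rw [TT, e, h1]
  module

theorem neg_pow_even {R : Type*} [Ring R] {x : R} {m : ℕ} (h : (-x) ^ m = 0) : x ^ m = 0 := by
  rcases Nat.even_or_odd m with hm | hm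
  · rwa [hm.neg_pow] at h
  · rwa [hm.neg_pow, neg_eq_zero] at h

theorem exists_pow {S : Fin 3 → End L V} (h0 : ∑ s, S s = 0) {p : Fin 3 → ℕ} {N : ℕ}
    (hty : NullTy p N) (hp : ∀ s, S s ^ p s = 0) :
    ∃ z : End L V, ∀ a : Fin 3 → L, TT S a ^ N = PP p N a • z := by
  have f : ∀ i j k : Fin 3, (Finset.univ : Finset (Fin 3)) = {i, j, k} → i ≠ j → i ≠ k → j ≠ k →
      ∀ a : Fin 3 → L, TT S a = (a i - a k) • S i + (a j - a k) • S j ∧ S k = - (S i + S j) :=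
    fun i j k h1 h2 h3 h4 a => TT_eq h0 a h1 h2 h3 h4
  have g0 := hp 0
  have g1 := hp 1
  have g2 := hp 2
  -- `i` is the arm `X`, `j` the arm `C`, `k` the third
  have t333 : ∀ i j k : Fin 3, (Finset.univ : Finset (Fin 3)) = {i, j, k} → i ≠ j → i ≠ k → j ≠ k →
      S i ^ 3 = 0 → S j ^ 3 = 0 → S k ^ 3 = 0 → ∃ z : End L V, ∀ a : Fin 3 → L,
      TT S a ^ 3 = ((a i - a k) * (a j - a k) * (a i - a j)) • z := by
    intro i j k h1 h2 h3 h4 hi hj hk
    refine ⟨U3 (S i) (S j), fun a => ?_⟩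
    obtain ⟨e1, e2⟩ := f i j k h1 h2 h3 h4 a
    rw [e2] at hk
    rw [e1, cen333 hi hj (neg_pow_even hk)]
    congr 1
    ring
  have t244 : ∀ i j k : Fin 3, (Finset.univ : Finset (Fin 3)) = {i, j, k} → i ≠ j → i ≠ k → j ≠ k →
      S i ^ 4 = 0 → S j ^ 2 = 0 → S k ^ 4 = 0 → ∃ z : End L V, ∀ a : Fin 3 → L,
      TT S a ^ 4 = ((a i - a k) ^ 2 * (a j - a k) * (a i - a j)) • z := by
    intro i j k h1 h2 h3 h4 hi hj hk
    refine ⟨U4 (S i) (S j), fun a => ?_⟩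
    obtain ⟨e1, e2⟩ := f i j k h1 h2 h3 h4 a
    rw [e2] at hk
    rw [e1, cen244 hj hi (neg_pow_even hk)]
    congr 1
    ring
  have t236 : ∀ i j k : Fin 3, (Finset.univ : Finset (Fin 3)) = {i, j, k} → i ≠ j → i ≠ k → j ≠ k →
      S i ^ 3 = 0 → S j ^ 2 = 0 → S k ^ 6 = 0 → ∃ z : End L V, ∀ a : Fin 3 → L,
      TT S a ^ 6 = ((a i - a k) ^ 3 * (a j - a k) ^ 2 * (a i - a j)) • z := by
    intro i j k h1 h2 h3 h4 hi hj hk
    refine ⟨U3 (S i) (S j) * U3 (S i) (S j), fun a => ?_⟩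
    obtain ⟨e1, e2⟩ := f i j k h1 h2 h3 h4 a
    rw [e2] at hk
    rw [e1, cen236 hj hi (neg_pow_even hk)]
    congr 1
    ring
  have fin : ∀ (Q : (Fin 3 → L) → L) (c : L), (∃ z : End L V, ∀ a, TT S a ^ N = Q a • z) →
      (∀ a, Q a = c * PP p N a) → ∃ z : End L V, ∀ a, TT S a ^ N = PP p N a • z := by
    rintro Q c ⟨z, hz⟩ hQ
    refine ⟨c • z, fun a => ?_⟩
    rw [hz, hQ, smul_smul, mul_comm]
  rcases hty with ⟨q0, q1, q2, rfl⟩ | ⟨q0, q1, q2, rfl⟩ | ⟨q0, q1, q2, rfl⟩ | ⟨q0, q1, q2, rfl⟩ |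
    ⟨q0, q1, q2, rfl⟩ | ⟨q0, q1, q2, rfl⟩ | ⟨q0, q1, q2, rfl⟩ | ⟨q0, q1, q2, rfl⟩ |
    ⟨q0, q1, q2, rfl⟩ | ⟨q0, q1, q2, rfl⟩ <;> rw [q0] at g0 <;> rw [q1] at g1 <;> rw [q2] at g2
  · exact fin _ (-1) (t333 0 1 2 (by decide) (by decide) (by decide) (by decide) g0 g1 g2)
      (fun a => by simp only [PP, q0, q1, q2, Nat.reduceDiv, pow_one]; ring)
  · exact fin _ 1 (t244 1 0 2 (by decide) (by decide) (by decide) (by decide) g1 g0 g2)
      (fun a => by simp only [PP, q0, q1, q2, Nat.reduceDiv, pow_one]; ring)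
  · exact fin _ 1 (t244 0 1 2 (by decide) (by decide) (by decide) (by decide) g0 g1 g2)
      (fun a => by simp only [PP, q0, q1, q2, Nat.reduceDiv, pow_one]; ring)
  · exact fin _ 1 (t244 0 2 1 (by decide) (by decide) (by decide) (by decide) g0 g2 g1)
      (fun a => by simp only [PP, q0, q1, q2, Nat.reduceDiv, pow_one]; ring)
  · exact fin _ (-1) (t236 1 0 2 (by decide) (by decide) (by decide) (by decide) g1 g0 g2)
      (fun a => by simp only [PP, q0, q1, q2, Nat.reduceDiv, pow_one]; ring)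
  · exact fin _ (-1) (t236 2 0 1 (by decide) (by decide) (by decide) (by decide) g2 g0 g1)
      (fun a => by simp only [PP, q0, q1, q2, Nat.reduceDiv, pow_one]; ring)
  · exact fin _ (-1) (t236 0 1 2 (by decide) (by decide) (by decide) (by decide) g0 g1 g2)
      (fun a => by simp only [PP, q0, q1, q2, Nat.reduceDiv, pow_one]; ring)
  · exact fin _ (-1) (t236 0 2 1 (by decide) (by decide) (by decide) (by decide) g0 g2 g1)
      (fun a => by simp only [PP, q0, q1, q2, Nat.reduceDiv, pow_one]; ring)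
  · exact fin _ (-1) (t236 2 1 0 (by decide) (by decide) (by decide) (by decide) g2 g1 g0)
      (fun a => by simp only [PP, q0, q1, q2, Nat.reduceDiv, pow_one]; ring)
  · exact fin _ (-1) (t236 1 2 0 (by decide) (by decide) (by decide) (by decide) g1 g2 g0)
      (fun a => by simp only [PP, q0, q1, q2, Nat.reduceDiv, pow_one]; ring)

theorem TT_update (S : Fin 3 → End L V) (x y w : L) :
    TT S ![x, y, w] = x • S 0 + y • S 1 + w • S 2 := by
  rw [TT, Fin.sum_univ_three]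
  rfl

/-- **the centre**: `T_a ^ N = P(a) z` with `z` self-adjoint, commuting with all `S_s` -/
theorem exists_centre [CharZero L] {q : V →ₗ[L] V →ₗ[L] L} {S : Fin 3 → End L V}
    (hS : ∀ s, IsSA q (S s)) (h0 : ∑ s, S s = 0) {p : Fin 3 → ℕ} {N : ℕ}
    (hty : NullTy p N) (hp : ∀ s, S s ^ p s = 0) :
    ∃ z : End L V, IsSA q z ∧ (∀ s, Commute z (S s)) ∧
      ∀ a : Fin 3 → L, TT S a ^ N = PP p N a • z := by
  obtain ⟨z, hz⟩ := exists_pow h0 hty hp
  have hinj : ∀ t : ℕ, 2 ≤ t → Function.Injective (![0, 1, (t : L)] : Fin 3 → L) := by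
    intro t ht i j hij
    have h1 : (t : L) ≠ 0 := by exact_mod_cast (by omega : t ≠ 0)
    have h2 : (t : L) ≠ 1 := by exact_mod_cast (by omega : t ≠ 1)
    have h01 : (0 : L) ≠ 1 := zero_ne_one
    fin_cases i <;> fin_cases j
    · rfl
    · exact absurd hij h01
    · exact absurd hij.symm h1
    · exact absurd hij.symm h01
    · rfl
    · exact absurd hij.symm h2
    · exact absurd hij h1
    · exact absurd hij h2
    · rfl
  have hcomm : ∀ a : Fin 3 → L, Function.Injective a → Commute z (TT S a) := by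
    intro a ha
    have h1 : Commute (PP p N a • z) (TT S a) := by
      rw [← hz]
      exact (Commute.refl (TT S a)).pow_left N
    have h2 := h1.smul_left (PP p N a)⁻¹
    rwa [smul_smul, inv_mul_cancel₀ (PP_ne ha), one_smul] at h2
  have hSA : ∀ a : Fin 3 → L, IsSA q (TT S a) := by
    intro a u v
    rw [TT, LinearMap.sum_apply, LinearMap.sum_apply, map_sum, map_sum, LinearMap.sum_apply]
    refine Finset.sum_congr rfl fun s _ => ?_
    rw [LinearMap.smul_apply, LinearMap.smul_apply, map_smul, map_smul, LinearMap.smul_apply,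
      hS s u v]
  have hpow : ∀ (T : End L V), IsSA q T → ∀ m : ℕ, IsSA q (T ^ m) := by
    intro T hT m
    induction m with
    | zero => intro u v; rfl
    | succ m ih =>
      intro u v
      rw [pow_succ, Module.End.mul_apply, ih, hT, ← Module.End.mul_apply, ← pow_succ',
        ← pow_succ]
  refine ⟨z, ?_, ?_, hz⟩
  · have h2 := hinj 2 (le_refl _)
    have h3 : z = (PP p N ![0, 1, ((2 : ℕ) : L)])⁻¹ • TT S ![0, 1, ((2 : ℕ) : L)] ^ N := by
      rw [hz, smul_smul, inv_mul_cancel₀ (PP_ne h2), one_smul]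
    intro u v
    rw [h3, LinearMap.smul_apply, LinearMap.smul_apply, map_smul, map_smul, LinearMap.smul_apply,
      hpow _ (hSA _) N u v]
  · have c2 := hcomm _ (hinj 2 (le_refl _))
    have c3 := hcomm _ (hinj 3 (by omega))
    rw [TT_update] at c2 c3
    have e2 : Commute z (S 2) := by
      have h := c3.sub_right c2
      have e : (0 : L) • S 0 + (1 : L) • S 1 + ((3 : ℕ) : L) • S 2
          - ((0 : L) • S 0 + (1 : L) • S 1 + ((2 : ℕ) : L) • S 2) = S 2 := by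
        push_cast
        module
      rwa [e] at h
    have e1 : Commute z (S 1) := by
      have h := c2.sub_right (e2.smul_right ((2 : ℕ) : L))
      have e : (0 : L) • S 0 + (1 : L) • S 1 + ((2 : ℕ) : L) • S 2
          - ((2 : ℕ) : L) • S 2 = S 1 := by
        module
      rwa [e] at h
    have e0 : Commute z (S 0) := by
      rw [Fin.sum_univ_three] at h0
      have h := (e1.add_right e2).neg_right
      have e : - (S 1 + S 2) = S 0 := by
        rw [neg_eq_iff_add_eq_zero, add_comm, ← add_assoc]; exact h0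
      rwa [e] at h
    intro s
    fin_cases s
    · exact e0
    · exact e1
    · exact e2

end Vale.Agent.P182.H291
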