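import Mathlib

/-!
# The centre of a null triple: the ring identities

`X`, `C` are elements of an algebra over a commutative ring with `X^p = 0`, `C^p' = 0`,
`(X + C)^p'' = 0`, where `(p, p', p'')` is `(3,3,3)`, `(4,2,4)` or `(3,2,6)`; then
`(g X + b C)^N` is a scalar polynomial in `g`, `b` times one fixed element.
-/

namespace Vale.Agent.P182.H291

variable {L R : Type*} [CommRing L] [Ring R] [Algebra L R]

/-- the word sum with two `X` and one `C` -/
def U3 (X C : R) : R := X * X * C + X * C * X + C * X * X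

/-- the word sum with three `X` and one `C` -/
def U4 (X C : R) : R := X * X * X * C + X * X * C * X + X * C * X * X + C * X * X * X

theorem pow3_expand (X C : R) (g b : L) :
    (g • X + b • C) ^ 3 = (g ^ 3) • (X * X * X) + (g ^ 2 * b) • U3 X C
      + (g * b ^ 2) • U3 C X + (b ^ 3) • (C * C * C) := by
  rw [U3, U3]
  simp only [pow_succ, pow_zero, one_mul, mul_add, add_mul, smul_mul_assoc, mul_smul_comm,
    smul_smul, smul_add]
  module

/-- type `(3,3,3)` -/
theorem cen333 {X C : R} (hX : X ^ 3 = 0) (hC : C ^ 3 = 0) (hXC : (X + C) ^ 3 = 0) (g b : L) :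
    (g • X + b • C) ^ 3 = (g * b * (g - b)) • U3 X C := by
  have hX' : X * X * X = 0 := by rw [← hX]; noncomm_ring
  have hC' : C * C * C = 0 := by rw [← hC]; noncomm_ring
  have h1 := pow3_expand X C (1 : ℤ) (1 : ℤ)
  simp only [one_smul, one_pow, one_mul, hX', hC', hXC, add_zero, zero_add] at h1
  have h2 : U3 C X = - U3 X C := by
    rw [eq_neg_iff_add_eq_zero, add_comm]; exact h1.symm
  rw [pow3_expand, hX', hC', h2]
  module

theorem cen244 {X C : R} (hC : C ^ 2 = 0) (hX : X ^ 4 = 0) (hXC : (X + C) ^ 4 = 0) (g b : L) :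
    (g • X + b • C) ^ 4 = (g ^ 2 * b * (g - b)) • U4 X C := by
  have hC' : C * C = 0 := by rw [← hC]; noncomm_ring
  have hX' : X * X * X * X = 0 := by rw [← hX]; noncomm_ring
  have key : ∀ (g b : L), (g • X + b • C) ^ 4
      = (g ^ 3 * b) • U4 X C + (g ^ 2 * b ^ 2) • (X * C * X * C + C * X * C * X + C * X * X * C) := by
    intro g b
    have e2 : (g • X + b • C) ^ 2 = (g ^ 2) • (X * X) + (g * b) • (X * C + C * X) := by
      simp only [pow_succ, pow_zero, one_mul, mul_add, add_mul, smul_mul_assoc, mul_smul_comm,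
        smul_smul, smul_add, hC', smul_zero]
      module
    have e4 : (g • X + b • C) ^ 4 = (g • X + b • C) ^ 2 * (g • X + b • C) ^ 2 := by
      rw [← pow_add]
    rw [e4, e2, U4]
    simp only [mul_add, add_mul, smul_mul_assoc, mul_smul_comm, smul_smul, smul_add]
    have a1 : X * X * (X * X) = 0 := by rw [← hX']; noncomm_ring
    have a2 : X * C * (C * X) = 0 := by
      rw [show X * C * (C * X) = X * (C * C) * X by noncomm_ring, hC']; simp
    rw [a1, a2]
    have b1 : X * X * (X * C) = X * X * X * C := by noncomm_ring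
    have b2 : X * X * (C * X) = X * X * C * X := by noncomm_ring
    have b3 : X * C * (X * X) = X * C * X * X := by noncomm_ring
    have b4 : C * X * (X * X) = C * X * X * X := by noncomm_ring
    have b5 : X * C * (X * C) = X * C * X * C := by noncomm_ring
    have b6 : C * X * (X * C) = C * X * X * C := by noncomm_ring
    have b7 : C * X * (C * X) = C * X * C * X := by noncomm_ring
    rw [b1, b2, b3, b4, b5, b6, b7]
    module
  have h1 := key 1 1
  simp only [one_smul, one_pow, one_mul, hXC] at h1
  have h2 : X * C * X * C + C * X * C * X + C * X * X * C = - U4 X C := by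
    rw [eq_neg_iff_add_eq_zero, add_comm]; exact h1.symm
  rw [key g b, h2]
  module

theorem cen236 {X C : R} (hC : C ^ 2 = 0) (hX : X ^ 3 = 0) (hXC : (X + C) ^ 6 = 0) (g b : L) :
    (g • X + b • C) ^ 6 = (g ^ 3 * b ^ 2 * (g - b)) • (U3 X C * U3 X C) := by
  have hC' : C * C = 0 := by rw [← hC]; noncomm_ring
  have hX' : X * X * X = 0 := by rw [← hX]; noncomm_ring
  have hCX : U3 C X = C * X * C := by
    rw [U3, hC']
    rw [show X * C * C = X * (C * C) by noncomm_ring, hC']; simp
  have hB : C * X * C * (C * X * C) = 0 := by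
    rw [show C * X * C * (C * X * C) = C * X * (C * C) * X * C by noncomm_ring, hC']; simp
  have key : ∀ (g b : L), (g • X + b • C) ^ 6
      = (g ^ 4 * b ^ 2) • (U3 X C * U3 X C)
        + (g ^ 3 * b ^ 3) • (U3 X C * (C * X * C) + C * X * C * U3 X C) := by
    intro g b
    have e3 : (g • X + b • C) ^ 3 = (g ^ 2 * b) • U3 X C + (g * b ^ 2) • (C * X * C) := by
      rw [pow3_expand, hX', hCX, hC']; simp
    have e6 : (g • X + b • C) ^ 6 = (g • X + b • C) ^ 3 * (g • X + b • C) ^ 3 := by
      rw [← pow_add]
    rw [e6, e3]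
    simp only [mul_add, add_mul, smul_mul_assoc, mul_smul_comm, smul_smul, smul_add, hB]
    module
  have h1 := key 1 1
  simp only [one_smul, one_pow, one_mul, hXC] at h1
  have h2 : U3 X C * (C * X * C) + C * X * C * U3 X C = - (U3 X C * U3 X C) := by
    rw [eq_neg_iff_add_eq_zero, add_comm]; exact h1.symm
  rw [key g b, h2]
  module

end Vale.Agent.P182.H291
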