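import Vale.Agent.P182.H291.CenR
import Vale.Agent.P182.H89.Struct

/-!
# The centre and the chains, in the form of `H89.Struct`
-/

namespace Vale.Agent.P182.H291

open Module Vale.Agent.P182.H533 Vale.Agent.P182.H89

section ring

variable {R : Type*} [Ring R]

theorem comm333 {X C : R} (hX : X ^ 3 = 0) (hC : C ^ 3 = 0) (hXC : (X + C) ^ 3 = 0) :
    U3 X C * X = X * U3 X C ∧ U3 X C * C = C * U3 X C := by
  have hX' : X * X * X = 0 := by rw [← hX]; noncomm_ring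
  have hC' : C * C * C = 0 := by rw [← hC]; noncomm_ring
  have h1 := pow3_expand X C (1 : ℤ) (1 : ℤ)
  simp only [one_smul, one_pow, one_mul, hX', hC', hXC, add_zero, zero_add] at h1
  have h2 : U3 X C = - U3 C X := by
    rw [eq_neg_iff_add_eq_zero]; exact h1.symm
  have gen : ∀ {Y Z : R}, Y * Y * Y = 0 → U3 Y Z * Y = Y * U3 Y Z := by
    intro Y Z hY
    have e1 : U3 Y Z * Y - Y * U3 Y Z = Z * (Y * Y * Y) - (Y * Y * Y) * Z := by
      rw [U3]; noncomm_ring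
    rw [hY, mul_zero, zero_mul, sub_zero, sub_eq_zero] at e1
    exact e1
  refine ⟨gen hX', ?_⟩
  rw [h2, neg_mul, mul_neg, gen hC']

theorem sum244 {X C : R} (hC : C ^ 2 = 0) (hX : X ^ 4 = 0) (hXC : (X + C) ^ 4 = 0) :
    U4 X C = - (X * C * X * C + C * X * C * X + C * X * X * C) := by
  have hC' : C * C = 0 := by rw [← hC]; noncomm_ring
  have hX' : X * X * X * X = 0 := by rw [← hX]; noncomm_ring
  rw [eq_neg_iff_add_eq_zero]
  rw [← hXC]
  have e : (X + C) ^ 4 = X * X * X * X + U4 X C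
      + (X * C * X * C + C * X * C * X + C * X * X * C)
      + (X * X * (C * C) + X * (C * C) * X + X * (C * C) * C + (C * C) * X * X + C * X * (C * C)
        + (C * C) * X * C + (C * C) * C * X + (C * C) * (C * C)) := by
    rw [U4]; noncomm_ring
  rw [e, hX', hC']
  simp

theorem comm244 {X C : R} (hC : C ^ 2 = 0) (hX : X ^ 4 = 0) (hXC : (X + C) ^ 4 = 0) :
    U4 X C * X = X * U4 X C ∧ U4 X C * C = C * U4 X C := by
  have hC' : C * C = 0 := by rw [← hC]; noncomm_ring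
  have hX' : X * X * X * X = 0 := by rw [← hX]; noncomm_ring
  refine ⟨?_, ?_⟩
  · have e1 : U4 X C * X - X * U4 X C = C * (X * X * X * X) - (X * X * X * X) * C := by
      rw [U4]; noncomm_ring
    rw [hX', mul_zero, zero_mul, sub_zero, sub_eq_zero] at e1
    exact e1
  · rw [sum244 hC hX hXC]
    have e1 : - (X * C * X * C + C * X * C * X + C * X * X * C) * C
        - C * - (X * C * X * C + C * X * C * X + C * X * X * C)
        = (C * C) * X * C * X + (C * C) * X * X * C - X * C * X * (C * C)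
          - C * X * X * (C * C) := by
      noncomm_ring
    rw [hC'] at e1
    simp only [mul_zero, zero_mul, add_zero, sub_zero] at e1
    exact sub_eq_zero.mp e1

theorem sum236 {X C : R} (hC : C ^ 2 = 0) (hX : X ^ 3 = 0) (hXC : (X + C) ^ 6 = 0) :
    U3 X C * U3 X C = - (U3 X C * (C * X * C) + C * X * C * U3 X C) := by
  have hC' : C * C = 0 := by rw [← hC]; noncomm_ring
  have hX' : X * X * X = 0 := by rw [← hX]; noncomm_ring
  have e3 : (X + C) ^ 3 = U3 X C + C * X * C := by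
    have h1 := pow3_expand X C (1 : ℤ) (1 : ℤ)
    simp only [one_smul, one_pow, one_mul, hX', hC', zero_mul, add_zero, zero_add] at h1
    rw [h1]
    congr 1
    rw [U3, hC', mul_assoc X C C, hC']; simp
  have e6 : (X + C) ^ 6 = (X + C) ^ 3 * (X + C) ^ 3 := by rw [← pow_add]
  rw [e6, e3] at hXC
  rw [eq_neg_iff_add_eq_zero, ← hXC]
  have hB : C * X * C * (C * X * C) = 0 := by
    rw [show C * X * C * (C * X * C) = C * X * (C * C) * X * C by noncomm_ring, hC']; simp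
  rw [mul_add, add_mul, add_mul, hB]
  abel

theorem comm236 {X C : R} (hC : C ^ 2 = 0) (hX : X ^ 3 = 0) (hXC : (X + C) ^ 6 = 0) :
    U3 X C * U3 X C * X = X * (U3 X C * U3 X C) ∧
    U3 X C * U3 X C * C = C * (U3 X C * U3 X C) := by
  have hC' : C * C = 0 := by rw [← hC]; noncomm_ring
  have hX' : X * X * X = 0 := by rw [← hX]; noncomm_ring
  have h1 : U3 X C * X = X * U3 X C := by
    have e1 : U3 X C * X - X * U3 X C = C * (X * X * X) - (X * X * X) * C := by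
      rw [U3]; noncomm_ring
    rw [hX', mul_zero, zero_mul, sub_zero, sub_eq_zero] at e1
    exact e1
  refine ⟨?_, ?_⟩
  · rw [mul_assoc, h1, ← mul_assoc, h1, mul_assoc]
  · rw [sum236 hC hX hXC]
    have e1 : - (U3 X C * (C * X * C) + C * X * C * U3 X C) * C
        - C * - (U3 X C * (C * X * C) + C * X * C * U3 X C)
        = (C * C) * X * C * U3 X C - U3 X C * (C * X * (C * C))
          + (C * X * X * (C * C) * X * C - C * X * (C * C) * X * X * C) + 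
          ((C * C) * X * X * C * X * C - C * X * C * X * X * (C * C)) := by
      rw [U3]; noncomm_ring
    rw [hC'] at e1
    simp only [mul_zero, zero_mul, add_zero, sub_zero] at e1
    exact sub_eq_zero.mp e1

end ring

section chains

variable {L V : Type*} [Field L] [AddCommGroup V] [Module L V]

theorem S3_eq {S : Fin 3 → End L V} (h0 : ∑ s, S s = 0) : S 2 = - (S 1 + S 0) := by
  rw [Fin.sum_univ_three] at h0
  rw [eq_neg_iff_add_eq_zero, ← h0]
  abel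

theorem S3_apply {S : Fin 3 → End L V} (h0 : ∑ s, S s = 0) (x : V) :
    S 2 x = - (S 1 x + S 0 x) := by
  rw [S3_eq h0]; rfl

theorem Ta_eq {S : Fin 3 → End L V} (h0 : ∑ s, S s = 0) (b : Fin 3 → L) :
    Ta S b = (b 1 - b 2) • S 1 + (b 0 - b 2) • S 0 := by
  rw [Ta, Fin.sum_univ_three, S3_eq h0]
  module

theorem Ta_apply {S : Fin 3 → End L V} (h0 : ∑ s, S s = 0) (b : Fin 3 → L) (x : V) :
    Ta S b x = (b 1 - b 2) • S 1 x + (b 0 - b 2) • S 0 x := by
  rw [Ta_eq h0]; rfl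

/-- the common value `w = S_2 v_1 = S_3 v_2 = S_1 v_3` -/
theorem Kr_w {S : Fin 3 → End L V} (h0 : ∑ s, S s = 0) {v : Fin 3 → V} (hv : Kr S v) :
    S 1 (v 0) = S 2 (v 1) ∧ S 1 (v 0) = S 0 (v 2) := by
  obtain ⟨h1, h2⟩ := hv
  rw [Fin.sum_univ_three] at h2
  have e0 := h1 0
  have e1 := h1 1
  have e2 := h1 2
  have a0 : S 1 (v 0) = - S 2 (v 0) := by
    rw [S3_apply h0, e0, add_zero, neg_neg]
  have a1 : S 2 (v 0) = - S 2 (v 1) := by
    have : S 2 (v 0 + v 1 + v 2) = 0 := by rw [h2, map_zero]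
    rw [map_add, map_add, e2, add_zero] at this
    exact eq_neg_of_add_eq_zero_left this
  have a2 : S 2 (v 1) = - S 0 (v 1) := by
    rw [S3_apply h0, e1, zero_add]
  have a3 : S 0 (v 1) = - S 0 (v 2) := by
    have : S 0 (v 0 + v 1 + v 2) = 0 := by rw [h2, map_zero]
    rw [map_add, map_add, e0, zero_add] at this
    exact eq_neg_of_add_eq_zero_left this
  constructor
  · rw [a0, a1, neg_neg]
  · rw [a0, a1, neg_neg, a2, a3, neg_neg]

theorem pow_app {T : End L V} (m : ℕ) (x : V) : (T ^ m) (T x) = (T ^ (m + 1)) x := by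
  rw [pow_succ]; rfl

theorem ap2 {T : End L V} {x : V} : T (T x) = (T ^ 2) x := by
  rw [pow_two]; rfl

theorem ap3 {T : End L V} {x : V} : T (T (T x)) = (T ^ 3) x := by
  rw [pow_succ, pow_two]; rfl

theorem ap4 {T : End L V} {x : V} : T (T (T (T x))) = (T ^ 4) x := by
  rw [pow_succ, pow_succ, pow_two]; rfl

theorem ap6 {T : End L V} {x : V} : T (T (T (T (T (T x))))) = (T ^ 6) x := by
  rw [pow_succ, pow_succ, pow_succ, pow_succ, pow_two]; rfl

theorem chn333 {S : Fin 3 → End L V} (h0 : ∑ s, S s = 0) (hp : ∀ s, S s ^ 3 = 0) :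
    Chn S 3 (fun _ => 1) 1 where
  sq := by
    intro v hv s
    obtain ⟨e1, e2⟩ := Kr_w h0 hv
    rw [Module.End.one_apply]
    fin_cases s
    · change S 0 (S 0 (S 1 (v 0))) = 0
      rw [e2, ap3, hp, LinearMap.zero_apply]
    · change S 1 (S 1 (S 1 (v 0))) = 0
      rw [ap3, hp, LinearMap.zero_apply]
    · change S 2 (S 2 (S 1 (v 0))) = 0
      rw [e1, ap3, hp, LinearMap.zero_apply]
  pow := by
    intro v _ b
    rw [one_smul, Module.End.one_apply]
    change (Ta S b ^ 1) _ = _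
    rw [pow_one]
  inj := by
    intro v _ h
    rwa [Module.End.one_apply] at h
  ne := fun _ _ => one_ne_zero

theorem chn244 {S : Fin 3 → End L V} (h0 : ∑ s, S s = 0) (hk : ∀ x, (∀ s, S s x = 0) → x = 0)
    (hp0 : S 0 ^ 2 = 0) (hp1 : S 1 ^ 4 = 0) (hp2 : S 2 ^ 4 = 0) :
    Chn S 4 (fun b => b 1 - b 2) (S 1) where
  sq := by
    intro v hv s
    obtain ⟨e1, e2⟩ := Kr_w h0 hv
    have w0 : S 0 (S 1 (v 0)) = 0 := by rw [e2, ap2, hp0, LinearMap.zero_apply]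
    have w1 : S 1 (S 1 (v 0)) = - S 2 (S 1 (v 0)) := by
      rw [S3_apply h0 (S 1 (v 0)), w0, add_zero, neg_neg]
    fin_cases s
    · change S 0 (S 0 (S 1 (S 1 (v 0)))) = 0
      rw [ap2, hp0, LinearMap.zero_apply]
    · change S 1 (S 1 (S 1 (S 1 (v 0)))) = 0
      rw [ap4, hp1, LinearMap.zero_apply]
    · change S 2 (S 2 (S 1 (S 1 (v 0)))) = 0
      rw [w1, e1, map_neg, map_neg, ap4, hp2, LinearMap.zero_apply, neg_zero]
  pow := by
    intro v hv b
    obtain ⟨e1, e2⟩ := Kr_w h0 hv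
    have w0 : S 0 (S 1 (v 0)) = 0 := by rw [e2, ap2, hp0, LinearMap.zero_apply]
    change (Ta S b ^ 2) _ = _
    rw [← ap2, Ta_apply h0 b (S 1 (v 0)), w0, smul_zero, add_zero, map_smul]
  inj := by
    intro v hv h
    obtain ⟨e1, e2⟩ := Kr_w h0 hv
    have w0 : S 0 (S 1 (v 0)) = 0 := by rw [e2, ap2, hp0, LinearMap.zero_apply]
    refine hk _ fun s => ?_
    fin_cases s
    · exact w0
    · exact h
    · change S 2 (S 1 (v 0)) = 0
      rw [S3_apply h0 (S 1 (v 0)), w0, h, add_zero, neg_zero]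
  ne := fun b hb => sub_ne_zero.mpr fun h => by
    have := hb h
    exact absurd this (by decide)

theorem chn236 {S : Fin 3 → End L V} (h0 : ∑ s, S s = 0) (hk : ∀ x, (∀ s, S s x = 0) → x = 0)
    (hp0 : S 0 ^ 2 = 0) (hp1 : S 1 ^ 3 = 0) (hp2 : S 2 ^ 6 = 0) :
    Chn S 6 (fun b => (b 1 - b 2) ^ 2 * (b 0 - b 2)) (S 1 * S 0 * S 1) := by
  have main : ∀ v, Kr S v → S 0 (S 1 (v 0)) = 0 ∧ S 1 (S 1 (S 1 (v 0))) = 0 ∧
      S 0 (S 0 (S 1 (S 1 (v 0)))) = 0 ∧ S 2 (S 1 (v 0)) = - S 1 (S 1 (v 0)) ∧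
      S 2 (S 1 (S 1 (v 0))) = - S 0 (S 1 (S 1 (v 0))) ∧
      S 2 (S 0 (S 1 (S 1 (v 0)))) = - S 1 (S 0 (S 1 (S 1 (v 0)))) := by
    intro v hv
    obtain ⟨e1, e2⟩ := Kr_w h0 hv
    have a1 : S 0 (S 1 (v 0)) = 0 := by rw [e2, ap2, hp0, LinearMap.zero_apply]
    have a2 : S 1 (S 1 (S 1 (v 0))) = 0 := by rw [ap3, hp1, LinearMap.zero_apply]
    have a3 : S 0 (S 0 (S 1 (S 1 (v 0)))) = 0 := by rw [ap2, hp0, LinearMap.zero_apply]
    refine ⟨a1, a2, a3, ?_, ?_, ?_⟩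
    · rw [S3_apply h0 (S 1 (v 0)), a1, add_zero]
    · rw [S3_apply h0 (S 1 (S 1 (v 0))), a2, zero_add]
    · rw [S3_apply h0 (S 0 (S 1 (S 1 (v 0)))), a3, add_zero]
  refine ⟨?_, ?_, ?_, ?_⟩
  · intro v hv s
    obtain ⟨a1, a2, a3, b1, b2, b3⟩ := main v hv
    obtain ⟨e1, e2⟩ := Kr_w h0 hv
    fin_cases s
    · change S 0 (S 0 (S 1 (S 0 (S 1 (S 1 (v 0)))))) = 0
      rw [ap2, hp0, LinearMap.zero_apply]
    · change S 1 (S 1 (S 1 (S 0 (S 1 (S 1 (v 0)))))) = 0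
      rw [ap3, hp1, LinearMap.zero_apply]
    · change S 2 (S 2 (S 1 (S 0 (S 1 (S 1 (v 0)))))) = 0
      have c3 : S 1 (S 0 (S 1 (S 1 (v 0)))) = - S 2 (S 0 (S 1 (S 1 (v 0)))) := by
        rw [b3, neg_neg]
      have c2 : S 0 (S 1 (S 1 (v 0))) = - S 2 (S 1 (S 1 (v 0))) := by rw [b2, neg_neg]
      have c1 : S 1 (S 1 (v 0)) = - S 2 (S 1 (v 0)) := by rw [b1, neg_neg]
      rw [c3, c2, c1, e1]
      simp only [map_neg, neg_neg]
      rw [ap6, hp2, LinearMap.zero_apply, neg_zero]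
  · intro v hv b
    obtain ⟨a1, a2, a3, b1, b2, b3⟩ := main v hv
    change (Ta S b ^ 4) _ = _ • Ta S b (S 1 (S 0 (S 1 (S 1 (v 0)))))
    have c1 := Ta_apply h0 b (S 1 (v 0))
    rw [a1, smul_zero, add_zero] at c1
    have c2 := Ta_apply h0 b (S 1 (S 1 (v 0)))
    rw [a2, smul_zero, zero_add] at c2
    have c3 := Ta_apply h0 b (S 0 (S 1 (S 1 (v 0))))
    rw [a3, smul_zero, add_zero] at c3
    rw [← ap4, c1]
    simp only [map_smul]
    rw [c2]
    simp only [map_smul]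
    rw [c3]
    simp only [map_smul, smul_smul]
    congr 1
    ring
  · intro v hv h
    obtain ⟨a1, a2, a3, b1, b2, b3⟩ := main v hv
    have h' : S 1 (S 0 (S 1 (S 1 (v 0)))) = 0 := h
    have c2 : S 0 (S 1 (S 1 (v 0))) = 0 := by
      refine hk _ fun s => ?_
      fin_cases s
      · exact a3
      · exact h'
      · change S 2 (S 0 (S 1 (S 1 (v 0)))) = 0
        rw [b3, h', neg_zero]
    have c1 : S 1 (S 1 (v 0)) = 0 := by
      refine hk _ fun s => ?_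
      fin_cases s
      · exact c2
      · exact a2
      · change S 2 (S 1 (S 1 (v 0))) = 0
        rw [b2, c2, neg_zero]
    refine hk _ fun s => ?_
    fin_cases s
    · exact a1
    · exact c1
    · change S 2 (S 1 (v 0)) = 0
      rw [b1, c1, neg_zero]
  · intro b hb
    have h1 : b 1 - b 2 ≠ 0 := sub_ne_zero.mpr fun h => absurd (hb h) (by decide)
    have h2 : b 0 - b 2 ≠ 0 := sub_ne_zero.mpr fun h => absurd (hb h) (by decide)
    exact mul_ne_zero (pow_ne_zero _ h1) h2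

theorem comm_all {S : Fin 3 → End L V} (h0 : ∑ s, S s = 0) {z : End L V}
    (h1 : z * S 1 = S 1 * z) (h2 : z * S 0 = S 0 * z) (s : Fin 3) : z * S s = S s * z := by
  fin_cases s
  · exact h2
  · exact h1
  · change z * S 2 = S 2 * z
    rw [S3_eq h0, mul_neg, neg_mul, mul_add, add_mul, h1, h2]

theorem neg_pow' {R : Type*} [Ring R] {x : R} {m : ℕ} (h : (-x) ^ m = 0) : x ^ m = 0 := by
  rcases Nat.even_or_odd m with hm | hm
  · rwa [hm.neg_pow] at h
  · rwa [hm.neg_pow, neg_eq_zero] at h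

theorem ne01 {b : Fin 3 → L} (hb : Function.Injective b) :
    b 1 - b 2 ≠ 0 ∧ b 0 - b 2 ≠ 0 ∧ (b 1 - b 2) - (b 0 - b 2) ≠ 0 := by
  refine ⟨sub_ne_zero.mpr fun h => absurd (hb h) (by decide),
    sub_ne_zero.mpr fun h => absurd (hb h) (by decide), ?_⟩
  rw [sub_sub_sub_cancel_right]
  exact sub_ne_zero.mpr fun h => absurd (hb h) (by decide)

theorem cenS333 {S : Fin 3 → End L V} (h0 : ∑ s, S s = 0) (hp : ∀ s, S s ^ 3 = 0) :
    Cen S 3 (fun b => (b 1 - b 2) * (b 0 - b 2) * ((b 1 - b 2) - (b 0 - b 2)))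
      (U3 (S 1) (S 0)) := by
  have h2 := hp 2
  rw [S3_eq h0] at h2
  have h2' := neg_pow' h2
  refine ⟨le_refl _, comm_all h0 (comm333 (hp 1) (hp 0) h2').1 (comm333 (hp 1) (hp 0) h2').2,
    fun b => ?_, fun b hb => ?_⟩
  · rw [Ta_eq h0, cen333 (hp 1) (hp 0) h2']
  · obtain ⟨g1, g2, g3⟩ := ne01 hb
    exact mul_ne_zero (mul_ne_zero g1 g2) g3

theorem cenS244 {S : Fin 3 → End L V} (h0 : ∑ s, S s = 0)
    (hp0 : S 0 ^ 2 = 0) (hp1 : S 1 ^ 4 = 0) (hp2 : S 2 ^ 4 = 0) :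
    Cen S 4 (fun b => (b 1 - b 2) ^ 2 * (b 0 - b 2) * ((b 1 - b 2) - (b 0 - b 2)))
      (U4 (S 1) (S 0)) := by
  rw [S3_eq h0] at hp2
  have h2' := neg_pow' hp2
  refine ⟨by norm_num, comm_all h0 (comm244 hp0 hp1 h2').1 (comm244 hp0 hp1 h2').2,
    fun b => ?_, fun b hb => ?_⟩
  · rw [Ta_eq h0, cen244 hp0 hp1 h2']
  · obtain ⟨g1, g2, g3⟩ := ne01 hb
    exact mul_ne_zero (mul_ne_zero (pow_ne_zero _ g1) g2) g3

theorem cenS236 {S : Fin 3 → End L V} (h0 : ∑ s, S s = 0)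
    (hp0 : S 0 ^ 2 = 0) (hp1 : S 1 ^ 3 = 0) (hp2 : S 2 ^ 6 = 0) :
    Cen S 6 (fun b => (b 1 - b 2) ^ 3 * (b 0 - b 2) ^ 2 * ((b 1 - b 2) - (b 0 - b 2)))
      (U3 (S 1) (S 0) * U3 (S 1) (S 0)) := by
  rw [S3_eq h0] at hp2
  have h2' := neg_pow' hp2
  refine ⟨by norm_num, comm_all h0 (comm236 hp0 hp1 h2').1 (comm236 hp0 hp1 h2').2,
    fun b => ?_, fun b hb => ?_⟩
  · rw [Ta_eq h0, cen236 hp0 hp1 h2']
  · obtain ⟨g1, g2, g3⟩ := ne01 hb
    exact mul_ne_zero (mul_ne_zero (pow_ne_zero _ g1) (pow_ne_zero _ g2)) g3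

/-- **`[C]`**: centre and chains for the three types -/
theorem stmtC {S : Fin 3 → End L V} (hk : ∀ x, (∀ s, S s x = 0) → x = 0) (p : Fin 3 → ℕ)
    (hty : p = ![3, 3, 3] ∨ p = ![2, 4, 4] ∨ p = ![2, 3, 6]) (h0 : ∑ s, S s = 0)
    (hp : ∀ s, S s ^ p s = 0) : ∃ N P z Q G, Cen S N P z ∧ Chn S N Q G := by
  rcases hty with rfl | rfl | rfl
  · have h3 : ∀ s, S s ^ 3 = 0 := by
      intro s
      have := hp s
      fin_cases s <;> exact this
    exact ⟨3, _, _, _, _, cenS333 h0 h3, chn333 h0 h3⟩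
  · exact ⟨4, _, _, _, _, cenS244 h0 (hp 0) (hp 1) (hp 2), chn244 h0 hk (hp 0) (hp 1) (hp 2)⟩
  · exact ⟨6, _, _, _, _, cenS236 h0 (hp 0) (hp 1) (hp 2), chn236 h0 hk (hp 0) (hp 1) (hp 2)⟩

/-- the common kernel is zero in the null situation -/
theorem Nul.ker_zero {q : V →ₗ[L] V →ₗ[L] L} {S : Fin 3 → End L V} {p : Fin 3 → ℕ}
    (h : Nul q S p) (x : V) (hx : ∀ s, S s x = 0) : x = 0 := by
  refine h.form.nondeg x fun y => ?_
  have hy : y ∈ ⨆ s, LinearMap.range (S s) := by rw [h.span]; exact Submodule.mem_top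
  have hle : ⨆ s, LinearMap.range (S s) ≤ LinearMap.ker (q x) := by
    refine iSup_le fun s => ?_
    rintro _ ⟨w, rfl⟩
    rw [LinearMap.mem_ker, ← h.sa s x w, hx s, map_zero, LinearMap.zero_apply]
  exact hle hy

/-- `[C]` in the null situation -/
theorem Nul.stmtC {q : V →ₗ[L] V →ₗ[L] L} {S : Fin 3 → End L V} {p : Fin 3 → ℕ}
    (h : Nul q S p) (hty : p = ![3, 3, 3] ∨ p = ![2, 4, 4] ∨ p = ![2, 3, 6]) :
    ∃ N P z Q G, Cen S N P z ∧ Chn S N Q G :=
  H291.stmtC (fun x hx => ker_zero h x hx) p hty h.sum h.pow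

end chains

end Vale.Agent.P182.H291
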