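import Vale.Agent.P182.H291.Cen
import Vale.Agent.P182.H291.Chn

/-!
# The arms of a null triple may be permuted
-/

namespace Vale.Agent.P182.H291

open Module Vale.Agent.P182.H533 Vale.Agent.P182.H89

variable {L V : Type*} [Field L] [AddCommGroup V] [Module L V]

/-- the sorted null types -/
def Sorted (p : Fin 3 → ℕ) : Prop := p = ![3, 3, 3] ∨ p = ![2, 4, 4] ∨ p = ![2, 3, 6]

theorem exists_perm {p : Fin 3 → ℕ} {N : ℕ} (h : NullTy p N) :
    ∃ σ : Equiv.Perm (Fin 3), Sorted (p ∘ σ) := by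
  have mk : ∀ (i j k : Fin 3), i ≠ j → i ≠ k → j ≠ k → ∃ σ : Equiv.Perm (Fin 3),
      σ 0 = i ∧ σ 1 = j ∧ σ 2 = k := by
    decide
  have fin : ∀ (i j k : Fin 3) (a b c : ℕ), i ≠ j → i ≠ k → j ≠ k → p i = a → p j = b → p k = c →
      (![a, b, c] = ![3, 3, 3] ∨ ![a, b, c] = ![2, 4, 4] ∨ ![a, b, c] = ![2, 3, 6]) →
      ∃ σ : Equiv.Perm (Fin 3), Sorted (p ∘ σ) := by
    intro i j k a b c hij hik hjk ha hb hc hs
    obtain ⟨σ, h0, h1, h2⟩ := mk i j k hij hik hjk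
    refine ⟨σ, ?_⟩
    have e : p ∘ σ = ![a, b, c] := by
      funext s
      fin_cases s
      · change p (σ 0) = a
        rw [h0, ha]
      · change p (σ 1) = b
        rw [h1, hb]
      · change p (σ 2) = c
        rw [h2, hc]
    rw [Sorted, e]
    exact hs
  rcases h with ⟨q0, q1, q2, -⟩ | ⟨q0, q1, q2, -⟩ | ⟨q0, q1, q2, -⟩ | ⟨q0, q1, q2, -⟩ |
    ⟨q0, q1, q2, -⟩ | ⟨q0, q1, q2, -⟩ | ⟨q0, q1, q2, -⟩ | ⟨q0, q1, q2, -⟩ |
    ⟨q0, q1, q2, -⟩ | ⟨q0, q1, q2, -⟩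
  · exact fin 0 1 2 _ _ _ (by decide) (by decide) (by decide) q0 q1 q2 (Or.inl rfl)
  · exact fin 0 1 2 _ _ _ (by decide) (by decide) (by decide) q0 q1 q2 (Or.inr (Or.inl rfl))
  · exact fin 1 0 2 _ _ _ (by decide) (by decide) (by decide) q1 q0 q2 (Or.inr (Or.inl rfl))
  · exact fin 2 0 1 _ _ _ (by decide) (by decide) (by decide) q2 q0 q1 (Or.inr (Or.inl rfl))
  · exact fin 0 1 2 _ _ _ (by decide) (by decide) (by decide) q0 q1 q2 (Or.inr (Or.inr rfl))
  · exact fin 0 2 1 _ _ _ (by decide) (by decide) (by decide) q0 q2 q1 (Or.inr (Or.inr rfl))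
  · exact fin 1 0 2 _ _ _ (by decide) (by decide) (by decide) q1 q0 q2 (Or.inr (Or.inr rfl))
  · exact fin 2 0 1 _ _ _ (by decide) (by decide) (by decide) q2 q0 q1 (Or.inr (Or.inr rfl))
  · exact fin 1 2 0 _ _ _ (by decide) (by decide) (by decide) q1 q2 q0 (Or.inr (Or.inr rfl))
  · exact fin 2 1 0 _ _ _ (by decide) (by decide) (by decide) q2 q1 q0 (Or.inr (Or.inr rfl))

/-- a null triple on a space `≠ 0` has one of the three types -/
theorem Nul.exists_perm {q : V →ₗ[L] V →ₗ[L] L} {S : Fin 3 → End L V} {p : Fin 3 → ℕ}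
    (h : Nul q S p) (hV : finrank L V ≠ 0) :
    ∃ σ : Equiv.Perm (Fin 3), p ∘ σ = ![3, 3, 3] ∨ p ∘ σ = ![2, 4, 4] ∨ p ∘ σ = ![2, 3, 6] := by
  obtain ⟨N, hN⟩ := exists_nullTy (p := p) (k := fun s => finrank L (LinearMap.ker (S s)))
    (Nat.pos_of_ne_zero hV) h.rk h.tot
  exact H291.exists_perm hN

theorem Nul.comp {q : V →ₗ[L] V →ₗ[L] L} {S : Fin 3 → End L V} {p : Fin 3 → ℕ}
    (h : Nul q S p) (σ : Equiv.Perm (Fin 3)) : Nul q (S ∘ σ) (p ∘ σ) where
  form := h.form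
  sa := fun s => h.sa (σ s)
  sum := by
    have := Equiv.sum_comp σ S
    rw [h.sum] at this
    exact this
  pow := fun s => h.pow (σ s)
  rk := fun s => h.rk (σ s)
  tot := by
    have := Equiv.sum_comp σ (fun s => finrank L (LinearMap.ker (S s)))
    rw [h.tot] at this
    exact this
  span := by
    have := Equiv.iSup_comp (g := fun s => LinearMap.range (S s)) σ
    rw [h.span] at this
    exact this

theorem RealS.comp {q : V →ₗ[L] V →ₗ[L] L} {S : Fin 3 → End L V}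
    (h : RealS q S) (σ : Equiv.Perm (Fin 3)) : RealS q (S ∘ σ) := by
  intro A hA hsum
  obtain ⟨n, hn⟩ := h (A ∘ σ.symm) (fun s => hA (σ.symm s)) (by
    rw [← Equiv.sum_comp σ (fun s => (A ∘ σ.symm) s * S s - S s * (A ∘ σ.symm) s)]
    simpa using hsum)
  refine ⟨n, fun s v => ?_⟩
  have := hn (σ s) v
  simpa using this

end Vale.Agent.P182.H291
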